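import Crest.Agent.N111.Lib.BM

-- ▼ part N111/B/Loc
section

/-!
# Row 111, module B: local operators on `L²(X; H)` (no direct integrals).
-/

set_option autoImplicit false

namespace Crest.Agent.N111.B

open MeasureTheory Topology Filter
open scoped ENNReal InnerProductSpace

variable {H H' : Type*} [NormedAddCommGroup H] [InnerProductSpace ℂ H]
  [NormedAddCommGroup H'] [InnerProductSpace ℂ H']

/-- commuting with all indicators -/
def Loc (T : L2X H →L[ℂ] L2X H') : Prop :=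
  ∀ A, MeasurableSet A → ∀ ξ, T (mul1 H A ξ) = mul1 H' A (T ξ)

lemma loc_fld {T : X → H →L[ℂ] H'} (hT : IsFld μ T) : Loc (fld μ T) := fun _ hA ξ =>
  (congrArg (fun S : L2X H →L[ℂ] L2X H' => S ξ) (mul1_fld hA hT)).symm

lemma Loc.comp_eq {T : L2X H →L[ℂ] L2X H'} (h : Loc T) (A : Set X) (hA : MeasurableSet A) :
    T ∘L mul1 H A = mul1 H' A ∘L T := by
  ext1 ξ; exact h A hA ξ

lemma Loc.mul {S T : L2X H →L[ℂ] L2X H} (hS : Loc S) (hT : Loc T) : Loc (S * T) := fun A hA ξ => by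
  rw [mul_apply_eq_comp, mul_apply_eq_comp, hT A hA, hS A hA]

lemma Loc.adj [CompleteSpace H] {T : L2X H →L[ℂ] L2X H} (hT : Loc T) : Loc (star T) :=
  fun A hA ξ => ext_inner_left ℂ fun η => by
    rw [ContinuousLinearMap.star_eq_adjoint, ContinuousLinearMap.adjoint_inner_right,
      ← inner_mul1_left hA, ← inner_mul1_left hA, ContinuousLinearMap.adjoint_inner_right, hT A hA]

lemma inner_mul1_eq {A : Set X} (hA : MeasurableSet A) (ξ η : L2X H) :
    ⟪mul1 H A ξ, η⟫_ℂ = ∫ x in A, ⟪ξ x, η x⟫_ℂ ∂μ := by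
  rw [L2.inner_def, ← integral_indicator hA]
  refine integral_congr_ae ?_
  filter_upwards [mul1_coeFn hA ξ] with x hx
  rw [hx]
  by_cases h : x ∈ A <;> simp [h]

theorem ae_inner_eq {a b : L2X H} {c d : L2X H'}
    (h : ∀ A, MeasurableSet A → ⟪mul1 H A a, b⟫_ℂ = ⟪mul1 H' A c, d⟫_ℂ) :
    ∀ᵐ x ∂μ, ⟪a x, b x⟫_ℂ = ⟪c x, d x⟫_ℂ :=
  Integrable.ae_eq_of_forall_setIntegral_eq _ _ (L2.integrable_inner a b) (L2.integrable_inner c d)
    fun A hA _ => by rw [← inner_mul1_eq hA, ← inner_mul1_eq hA, h A hA]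

/-- pointwise adjoint -/
theorem Loc.ae_adj [CompleteSpace H] {T : L2X H →L[ℂ] L2X H} (hT : Loc T) (a b : L2X H) :
    ∀ᵐ x ∂μ, ⟪a x, T b x⟫_ℂ = ⟪star T a x, b x⟫_ℂ :=
  ae_inner_eq fun A hA => by
    rw [← hT.adj A hA, ContinuousLinearMap.star_eq_adjoint, ContinuousLinearMap.adjoint_inner_left]

/-- locality -/
theorem Loc.ae_congr {T : L2X H →L[ℂ] L2X H'} (hT : Loc T) {A : Set X} (hA : MeasurableSet A)
    {a b : L2X H} (h : ∀ᵐ x ∂μ, x ∈ A → a x = b x) : ∀ᵐ x ∂μ, x ∈ A → T a x = T b x := by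
  have e : mul1 H A a = mul1 H A b := by
    refine Lp.ext ?_
    filter_upwards [mul1_coeFn hA a, mul1_coeFn hA b, h] with x h1 h2 h3
    rw [h1, h2]
    by_cases hx : x ∈ A <;> simp [hx, h3]
  filter_upwards [mul1_coeFn hA (T a), mul1_coeFn hA (T b)] with x h1 h2 hx
  rw [← hT A hA, e, hT A hA, h2, Set.indicator_of_mem hx, Set.indicator_of_mem hx] at h1
  exact h1.symm

/-- a local operator applied to a countably valued vector field -/
theorem Loc.ae_piece {T : L2X H →L[ℂ] L2X H'} (hT : Loc T) {c : X → Γ} (hc : Measurable c)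
    {v : Γ → H} {a : L2X H} (h : ∀ᵐ x ∂μ, a x = v (c x)) :
    ∀ᵐ x ∂μ, T a x = T (cst H (v (c x))) x := by
  have h1 : ∀ γ, ∀ᵐ x ∂μ, x ∈ c ⁻¹' {γ} → T a x = T (cst H (v γ)) x := fun γ =>
    hT.ae_congr (hc MeasurableSet.of_discrete) (by
      filter_upwards [h, cst_coeFn (v γ)] with x h1 h2 hx
      rw [h1, h2, show c x = γ from hx])
  filter_upwards [ae_all_iff.2 h1] with x hx using hx _ rfl

theorem Loc.ext_cst {S T : L2X H →L[ℂ] L2X H'} (hS : Loc S) (hT : Loc T)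
    (h : ∀ v, S (cst H v) = T (cst H v)) : S = T :=
  L2X_ext fun A hA v => by rw [hS A hA, hT A hA, h]

/-- unfolding a property holding along every translate -/
theorem unfold_ae {F : X → X → Γ → Prop} (hF : ∀ γ, MeasurableSet {p : X × X | F p.1 p.2 γ})
    (h : ∀ g : G, ∀ᵐ x ∂μ, F x (g • x) (coc g x)) (γ : Γ) : ∀ᵐ x ∂μ, ∀ᵐ x' ∂μ, F x x' γ := by
  have hm : MeasurableSet {p : G × X | F p.2 (p.1 • p.2) (coc p.1 p.2)} := by
    have e : {p : G × X | F p.2 (p.1 • p.2) (coc p.1 p.2)} = ⋃ δ : Γ,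
        (fun p : G × X => coc p.1 p.2) ⁻¹' {δ} ∩
          (fun p : G × X => (p.2, p.1 • p.2)) ⁻¹' {q : X × X | F q.1 q.2 δ} := by
      ext p; simp
    rw [e]
    exact MeasurableSet.iUnion fun δ =>
      (measurable_coc measurable_fst measurable_snd MeasurableSet.of_discrete).inter
        ((measurable_snd.prodMk (measurable_fst.smul measurable_snd)) (hF δ))
  have h1 := (Measure.ae_ae_comm (μ := m) (ν := μ)
    (p := fun g x => F x (g • x) (coc g x)) hm).1 (Eventually.of_forall h)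
  filter_upwards [h1] with x hx
  have h2 := (measurePreserving_mul_right m (sec x)⁻¹).quasiMeasurePreserving.ae hx
  simpa only [smul_sec_mul, coc_sec_mul] using ae_pr_iff.1 h2 γ

/-- a local intertwiner of induced representations is constant -/
theorem Loc.const_of_intertwine [CompleteSpace H] [CompleteSpace H'] {π : URep Γ H}
    {π' : URep Γ H'} {T : L2X H →L[ℂ] L2X H'} (hT : Loc T)
    (h : ∀ g ξ, T (ind π g ξ) = ind π' g (T ξ)) (γ : Γ) (v : H) :
    ContinuousLinearMap.adjoint (cst H') (T (cst H (π γ v)))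
      = π' γ (ContinuousLinearMap.adjoint (cst H') (T (cst H v))) := by
  have h1 : ∀ (w : H) (g : G), ∀ᵐ x ∂μ,
      T (cst H (π (coc g x) w)) (g • x) = π' (coc g x) (T (cst H w) x) := fun w g => by
    have h2 := hT.ae_piece (c := fun x => (coc g⁻¹ x)⁻¹) (by fun_prop) (v := fun δ => π δ w)
      (ind_cst_coeFn π g w)
    filter_upwards [ae_smul g h2, ind_coeFn' π' g (T (cst H w))] with x h3 h4
    rw [coc_inv, inv_inv, h] at h3
    rw [← h3, h4]
  have h2 := unfold_ae (F := fun x x' δ => T (cst H (π δ v)) x' = π' δ (T (cst H v) x))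
    (fun δ => ((Lp.stronglyMeasurable _).comp_measurable measurable_snd).measurableSet_eq_fun
      ((π' δ).continuous.comp_stronglyMeasurable
        ((Lp.stronglyMeasurable _).comp_measurable measurable_fst))) (h1 v)
  obtain ⟨x, hx1, hx2⟩ := ((h2 γ).and (h2 1)).exists
  have e : ∀ (ζ : L2X H') (w : H'), (∀ᵐ y ∂μ, ζ y = w) →
      ContinuousLinearMap.adjoint (cst H') ζ = w := fun ζ w hw => by
    have : ζ = cst H' w := Lp.ext (EventuallyEq.trans hw (cst_coeFn w).symm)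
    exact ext_inner_left ℂ fun u => by
      rw [ContinuousLinearMap.adjoint_inner_right, this, inner_cst_cst]
  rw [e _ _ hx1, e _ (T (cst H v) x) (by simpa using hx2)]

lemma adj_cst_amp [CompleteSpace H] [CompleteSpace H'] (A : H →L[ℂ] H') (ζ : L2X H) :
    ContinuousLinearMap.adjoint (cst H') (amp A ζ) = A (ContinuousLinearMap.adjoint (cst H) ζ) := by
  refine ext_inner_left ℂ fun u => ?_
  rw [ContinuousLinearMap.adjoint_inner_right, ← ContinuousLinearMap.adjoint_inner_left A,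
    ContinuousLinearMap.adjoint_inner_right, inner_cst_left, inner_cst_left]
  refine integral_congr_ae ((amp_coeFn A ζ).mono fun x hx => ?_)
  simp only [hx, ContinuousLinearMap.adjoint_inner_left]


/-- rows with orthogonal initial spaces -/
theorem sum_rows_le [CompleteSpace H] [CompleteSpace H'] {κ : Type*} (F : Finset κ)
    (T : κ → H →L[ℂ] H') {C : ℝ} (hC : ∀ k, ‖T k‖ ≤ C)
    (h : ∀ k ∈ F, ∀ l ∈ F, k ≠ l → T k ∘L ContinuousLinearMap.adjoint (T l) = 0) (z : H) :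
    ∑ k ∈ F, ‖T k z‖ ^ 2 ≤ C ^ 2 * ‖z‖ ^ 2 := by
  set S := ∑ k ∈ F, ‖T k z‖ ^ 2 with hS
  set w := ∑ k ∈ F, ContinuousLinearMap.adjoint (T k) (T k z) with hw
  have hS0 : 0 ≤ S := Finset.sum_nonneg fun _ _ => sq_nonneg _
  have h1 : S = (⟪z, w⟫_ℂ).re := by
    simp only [hS, hw, inner_sum, Complex.re_sum, ContinuousLinearMap.adjoint_inner_right,
      inner_self_eq_norm_sq_to_K]
    norm_cast
  have h2 : ‖w‖ ^ 2 ≤ C ^ 2 * S := by
    have e : ‖w‖ ^ 2 = ∑ k ∈ F, ‖ContinuousLinearMap.adjoint (T k) (T k z)‖ ^ 2 := by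
      rw [← inner_self_eq_norm_sq (𝕜 := ℂ), hw, sum_inner, map_sum]
      refine Finset.sum_congr rfl fun k hk => ?_
      rw [inner_sum, Finset.sum_eq_single k (fun l hl hlk => ?_) (fun h => absurd hk h),
        inner_self_eq_norm_sq]
      rw [ContinuousLinearMap.adjoint_inner_left, ← ContinuousLinearMap.comp_apply,
        h k hk l hl hlk.symm, zero_apply, inner_zero_right]
    rw [e, hS, Finset.mul_sum]
    refine Finset.sum_le_sum fun k _ => ?_
    rw [← mul_pow]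
    gcongr
    exact ContinuousLinearMap.le_of_opNorm_le _
      (by rw [LinearIsometryEquiv.norm_map]; exact hC k) _
  have h3 : S ≤ ‖z‖ * ‖w‖ := h1 ▸ (Complex.re_le_norm _).trans (norm_inner_le_norm _ _)
  have h4 : S ^ 2 ≤ ‖z‖ ^ 2 * (C ^ 2 * S) := by
    calc S ^ 2 ≤ (‖z‖ * ‖w‖) ^ 2 := by gcongr
      _ ≤ _ := by rw [mul_pow]; gcongr
  rcases hS0.eq_or_lt with h0 | h0
  · rw [← h0]; positivity
  · nlinarith

/-- integration of pointwise `HasSum` identities for squared norms -/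
theorem hasSum_norm_sq_of_ae {κ : Type*} [Countable κ] {a : κ → L2X H} {b : L2X H'}
    (h : ∀ᵐ x ∂μ, HasSum (fun k => ‖a k x‖ ^ 2) (‖b x‖ ^ 2)) :
    HasSum (fun k => ‖a k‖ ^ 2) (‖b‖ ^ 2) := by
  simp only [norm_sq_eq_integral]
  refine hasSum_integral_of_dominated_convergence (fun k x => ‖a k x‖ ^ 2)
    (fun k => (integrable_norm_sq (a k)).aestronglyMeasurable)
    (fun k => Eventually.of_forall fun x => (Real.norm_of_nonneg (sq_nonneg _)).le)
    (h.mono fun x hx => hx.summable) ((integrable_norm_sq b).congr (h.mono fun x hx => ?_)) h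
  exact hx.tsum_eq.symm

theorem sum_norm_sq_le_of_ae {κ : Type*} (F : Finset κ) {a : κ → L2X H} {b : L2X H'} {C : ℝ}
    (h : ∀ᵐ x ∂μ, ∑ k ∈ F, ‖a k x‖ ^ 2 ≤ C * ‖b x‖ ^ 2) :
    ∑ k ∈ F, ‖a k‖ ^ 2 ≤ C * ‖b‖ ^ 2 := by
  simp only [norm_sq_eq_integral]
  rw [← integral_finsetSum F fun k _ => integrable_norm_sq (a k), ← integral_const_mul]
  exact integral_mono_ae (integrable_finsetSum F fun k _ => integrable_norm_sq (a k))
    ((integrable_norm_sq b).const_mul C) h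

/-! ### scalar multiplication operators -/

lemma bm_isFld {a : X → ℂ} (ha : BM a) : IsFld μ fun x => a x • (1 : H →L[ℂ] H) := by
  obtain ⟨h1, C, hC⟩ := ha
  exact (IsFld.const 1).smul h1.aestronglyMeasurable (Eventually.of_forall hC)

lemma bm_star {Y : Type} [MeasurableSpace Y] {a : Y → ℂ} (ha : BM a) : BM fun x => star (a x) :=
  ha.conj

lemma bm_indicator {Y : Type} [MeasurableSpace Y] {A : Set Y} (hA : MeasurableSet A) :
    BM (A.indicator (1 : Y → ℂ)) :=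
  ⟨measurable_one.indicator hA, 1, fun x => by by_cases hx : x ∈ A <;> simp [hx]⟩

lemma mulf_one : mulf H (fun _ => 1) = 1 := by simp [mulf]


lemma mulf_mul {a b : X → ℂ} (ha : BM a) (hb : BM b) :
    mulf H (fun x => a x * b x) = mulf H a * mulf H b := by
  rw [mulf, mulf, mulf, ← fld_mul (bm_isFld ha) (bm_isFld hb)]
  simp [smul_smul, mul_comm]

lemma star_mulf [CompleteSpace H] {a : X → ℂ} (ha : BM a) :
    star (mulf H a) = mulf H fun x => star (a x) := by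
  rw [mulf, star_fld (bm_isFld ha) (by simpa using bm_isFld (H := H) (bm_star ha)), mulf]
  simp

lemma mulf_fld {a : X → ℂ} (ha : BM a) {T : X → H →L[ℂ] H} (hT : IsFld μ T) :
    mulf H a * fld μ T = fld μ T * mulf H a := by
  rw [mulf, ← fld_mul (bm_isFld ha) hT, ← fld_mul hT (bm_isFld ha)]
  simp

lemma ind_mulf (π : URep Γ H) (g : G) {a : X → ℂ} (ha : BM a) :
    ind π g * mulf H a * ind π g⁻¹ = mulf H fun x => a (g⁻¹ • x) := by
  have := ind_fld (bm_isFld (H := H) ha) π π g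
  rw [mul_assoc]
  refine this.trans ?_
  congr 1
  ext1 x
  change π (coc g⁻¹ x)⁻¹ * (a (g⁻¹ • x) • (1 : H →L[ℂ] H) * π (coc g⁻¹ x)) = _
  simp

end Crest.Agent.N111.B
end

-- ▼ part N111/B/Rows
section

/-!
# Row 111, module B: square roots of sums of squares of operators.
-/

set_option autoImplicit false

namespace Crest.Agent.N111.B

open MeasureTheory Topology Filter
open scoped ENNReal InnerProductSpace

variable {H H' H'' : Type*} [NormedAddCommGroup H] [InnerProductSpace ℂ H]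
  [NormedAddCommGroup H'] [InnerProductSpace ℂ H'] [NormedAddCommGroup H''] [InnerProductSpace ℂ H'']

theorem exists_rows {κ : Type*} (T : κ → H →L[ℂ] H') {C : ℝ}
    (h : ∀ η (F : Finset κ), ∑ k ∈ F, ‖T k η‖ ^ 2 ≤ C * ‖η‖ ^ 2) :
    ∃ S : H →L[ℂ] lp (fun _ : κ => H') 2, ∀ η k, S η k = T k η := by
  have hm : ∀ η, Memℓp (fun k => T k η) 2 := fun η =>
    memℓp_gen' (C := C * ‖η‖ ^ 2) fun s => by simpa using h η s
  let S : H →ₗ[ℂ] lp (fun _ : κ => H') 2 :=
    { toFun := fun η => ⟨fun k => T k η, hm η⟩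
      map_add' := fun a b => lp.ext (funext fun k => map_add (T k) a b)
      map_smul' := fun c a => lp.ext (funext fun k => map_smul (T k) c a) }
  refine ⟨S.mkContinuous (Real.sqrt (max C 0)) fun η => ?_, fun _ _ => rfl⟩
  refine lp.norm_le_of_forall_sum_le (by norm_num) (by positivity) fun s => ?_
  have e : (2 : ℝ≥0∞).toReal = ((2 : ℕ) : ℝ) := by norm_num
  simp only [e, Real.rpow_natCast, mul_pow, Real.sq_sqrt (le_max_right C 0)]
  exact (h η s).trans (by gcongr; exact le_max_left _ _)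

lemma inner_self_c (η : H) : ⟪η, η⟫_ℂ = ((‖η‖ ^ 2 : ℝ) : ℂ) := by
  rw [inner_self_eq_norm_sq_to_K]; norm_cast

lemma re_inner_sq [CompleteSpace H] {a : H →L[ℂ] H} (ha : star a = a) (η : H) :
    ⟪η, (a * a) η⟫_ℂ = ((‖a η‖ ^ 2 : ℝ) : ℂ) := by
  rw [mul_apply_eq_comp, ← ContinuousLinearMap.adjoint_inner_left,
    ← ContinuousLinearMap.star_eq_adjoint, ha, inner_self_c]

lemma sa_of_nonneg [CompleteSpace H] {a : H →L[ℂ] H} (ha : 0 ≤ a) : star a = a :=
  IsSelfAdjoint.of_nonneg ha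

lemma inner_sa [CompleteSpace H] {a : H →L[ℂ] H} (ha : star a = a) (η ζ : H) :
    ⟪a η, ζ⟫_ℂ = ⟪η, a ζ⟫_ℂ := by
  rw [← ContinuousLinearMap.adjoint_inner_left, ← ContinuousLinearMap.star_eq_adjoint, ha]

/-- the square root of `∑ Tₖ* Tₖ` -/
theorem exists_sqrt_rows [CompleteSpace H] [CompleteSpace H'] {κ : Type*} (T : κ → H →L[ℂ] H')
    {C : ℝ} (h : ∀ η (F : Finset κ), ∑ k ∈ F, ‖T k η‖ ^ 2 ≤ C * ‖η‖ ^ 2) :
    ∃ a : H →L[ℂ] H, 0 ≤ a ∧ ∀ η, HasSum (fun k => ‖T k η‖ ^ 2) (‖a η‖ ^ 2) := by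
  obtain ⟨S, hS⟩ := exists_rows T h
  have h0 : 0 ≤ ContinuousLinearMap.adjoint S ∘L S :=
    (ContinuousLinearMap.nonneg_iff_isPositive _).2
      (ContinuousLinearMap.isPositive_adjoint_comp_self S)
  refine ⟨CFC.sqrt (ContinuousLinearMap.adjoint S ∘L S), CFC.sqrt_nonneg _, fun η => ?_⟩
  have h1 := re_inner_sq (sa_of_nonneg (CFC.sqrt_nonneg (ContinuousLinearMap.adjoint S ∘L S))) η
  rw [CFC.sqrt_mul_sqrt_self _ h0, ContinuousLinearMap.comp_apply,
    ContinuousLinearMap.adjoint_inner_right, inner_self_c] at h1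
  have h2 := Complex.ofReal_injective h1
  have h3 := lp.hasSum_norm (p := 2) (by norm_num) (S η)
  have e : (2 : ℝ≥0∞).toReal = ((2 : ℕ) : ℝ) := by norm_num
  simp only [e, Real.rpow_natCast, hS] at h3
  rwa [← h2]

/-- polarisation -/
theorem hasSum_inner {κ : Type*} {T : κ → H →L[ℂ] H'} {a : H →L[ℂ] H''}
    (h : ∀ η, HasSum (fun k => ‖T k η‖ ^ 2) (‖a η‖ ^ 2)) (η ζ : H) :
    HasSum (fun k => ⟪T k η, T k ζ⟫_ℂ) ⟪a η, a ζ⟫_ℂ := by
  have h' : ∀ η, HasSum (fun k => ((‖T k η‖ : ℂ)) ^ 2) ((‖a η‖ : ℂ) ^ 2) := fun η => by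
    exact_mod_cast Complex.hasSum_ofReal.2 (h η)
  have := (((h' (η + ζ)).sub (h' (η - ζ))).add
    (((h' (η - Complex.I • ζ)).sub (h' (η + Complex.I • ζ))).mul_right Complex.I)).div_const 4
  simp only [map_add, map_sub, map_smul] at this
  simp only [inner_eq_sum_norm_sq_div_four]
  exact this

theorem commute_of_sq [CompleteSpace H] {a c : H →L[ℂ] H} (ha : 0 ≤ a) (h : Commute (a * a) c) :
    Commute a c := by
  rw [← CFC.sqrt_mul_self a ha]
  exact h.cfcₙ_nnreal _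

theorem commute_of_rows [CompleteSpace H] [CompleteSpace H'] {κ : Type*} {T : κ → H →L[ℂ] H'}
    {a c : H →L[ℂ] H} (ha : 0 ≤ a) (h : ∀ η, HasSum (fun k => ‖T k η‖ ^ 2) (‖a η‖ ^ 2))
    {c' : H' →L[ℂ] H'} (h1 : ∀ k η, T k (c η) = c' (T k η))
    (h2 : ∀ k η, T k (star c η) = star c' (T k η)) : Commute a c := by
  refine commute_of_sq ha ?_
  ext ζ
  refine ext_inner_left ℂ fun η => ?_
  have e1 := hasSum_inner h η (c ζ)
  have e2 := hasSum_inner h (star c η) ζ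
  simp only [h1, h2, ContinuousLinearMap.star_eq_adjoint c',
    ContinuousLinearMap.adjoint_inner_left] at e1 e2
  have e3 := e1.unique e2
  rw [inner_sa (sa_of_nonneg ha), inner_sa (sa_of_nonneg ha), ContinuousLinearMap.star_eq_adjoint,
    ContinuousLinearMap.adjoint_inner_left] at e3
  exact e3

theorem commute_of_norm [CompleteSpace H] {K : Type*} [Group K] (ρ : URep K H) (g : K)
    {a : H →L[ℂ] H} (ha : 0 ≤ a) (h : ∀ η, ‖a (ρ g η)‖ = ‖a η‖) : Commute a (ρ g) := by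
  refine commute_of_sq ha ?_
  have e : ρ g⁻¹ * (a * a) * ρ g = a * a := by
    rw [← sub_eq_zero, ← ContinuousLinearMap.coe_inj]
    refine (inner_map_self_eq_zero _).1 fun η => ?_
    rw [inner_eq_zero_symm]
    change ⟪η, ρ g⁻¹ ((a * a) (ρ g η)) - (a * a) η⟫_ℂ = 0
    rw [inner_sub_right, ← ρ.inner_left, re_inner_sq (sa_of_nonneg ha),
      re_inner_sq (sa_of_nonneg ha), h, sub_self]
  change a * a * ρ g = ρ g * (a * a)
  conv_rhs => rw [← e]
  simp only [← mul_assoc, URep.mul_inv_self, one_mul]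

theorem eq_of_inner_self {S T : H →L[ℂ] H} (h : ∀ η, ⟪η, S η⟫_ℂ = ⟪η, T η⟫_ℂ) : S = T := by
  rw [← sub_eq_zero, ← ContinuousLinearMap.coe_inj]
  refine (inner_map_self_eq_zero _).1 fun η => ?_
  rw [inner_eq_zero_symm]
  change ⟪η, S η - T η⟫_ℂ = 0
  rw [inner_sub_right, h, sub_self]

theorem le_smul_one [CompleteSpace H] {T : H →L[ℂ] H} (hT : star T = T) {B : ℝ}
    (h : ∀ η, (⟪η, T η⟫_ℂ).re ≤ B * ‖η‖ ^ 2) : T ≤ (B : ℂ) • (1 : H →L[ℂ] H) := by
  rw [ContinuousLinearMap.le_def, ContinuousLinearMap.isPositive_def']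
  refine ⟨?_, fun η => ?_⟩
  · change star _ = _
    rw [star_sub, hT, star_smul, star_one, Complex.star_def, Complex.conj_ofReal]
  · rw [ContinuousLinearMap.reApplyInnerSelf_apply, inner_re_symm]
    change 0 ≤ (⟪η, (B : ℂ) • η - T η⟫_ℂ).re
    rw [inner_sub_right, inner_smul_right, inner_self_c, Complex.sub_re, sub_nonneg, ← Complex.ofReal_mul,
      Complex.ofReal_re]
    exact h η

theorem denseRange_of_inj [CompleteSpace H] {a : H →L[ℂ] H} (ha : star a = a)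
    (h : ∀ ξ, a ξ = 0 → ξ = 0) : DenseRange a := by
  have : (a.range).topologicalClosure = ⊤ := by
    rw [Submodule.topologicalClosure_eq_top_iff, eq_bot_iff]
    intro ξ hξ
    refine h ξ (ext_inner_left ℂ fun η => ?_)
    rw [← inner_sa ha, inner_zero_right]
    exact hξ _ ⟨η, rfl⟩
  exact (Submodule.dense_iff_topologicalClosure_eq_top.2 this : _)

/-- Douglas factorisation -/
theorem exists_douglas [CompleteSpace H'] {a : H →L[ℂ] H} (ha : DenseRange a) {s : H →L[ℂ] H'}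
    (h : ∀ v, ‖s v‖ ≤ ‖a v‖) : ∃ d : H →L[ℂ] H', ∀ v, d (a v) = s v :=
  ⟨(s : H →ₗ[ℂ] H').extendOfNorm (a : H →ₗ[ℂ] H), fun v =>
    LinearMap.extendOfNorm_eq ha ⟨1, by simpa using h⟩ v⟩

end Crest.Agent.N111.B
end

-- ▼ part N111/B/Set

/-!
# Row 111, module B: the position operator `j₀` of a setting.
-/

set_option autoImplicit false

namespace Crest.Agent.N111.B

open MeasureTheory Topology Filter
open scoped ENNReal InnerProductSpace

variable {κ H : Type} [Fintype κ] [DecidableEq κ] [NormedAddCommGroup H] [InnerProductSpace ℂ H]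
  [CompleteSpace H] {S : Setting κ H} {i : κ} {j₀ : H →L[ℂ] H}

/-- the other legs -/
abbrev Gi (i : κ) : Type := {g : κ → Γ // g i = 1}

/-- leg `i` -/
abbrev ms (i : κ) (μ : Γ) : κ → Γ := Pi.mulSingle i μ

omit [Fintype κ] in
lemma ms_inv (μ : Γ) : ms i μ⁻¹ = (ms i μ)⁻¹ := Pi.mulSingle_inv (f := fun _ => Γ) i μ


omit [Fintype κ] in
lemma ms_comm {g : κ → Γ} (hg : g i = 1) (μ : Γ) : g * ms i μ = ms i μ * g := by
  ext1 k
  by_cases h : k = i
  · subst h; simp [hg]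
  · simp [h]

omit [Fintype κ] in
lemma eq_mul_ms (i : κ) (g : κ → Γ) : g = Function.update g i 1 * ms i (g i) := by
  ext1 k
  by_cases h : k = i
  · subst h; simp
  · simp [h]

/-- splitting off leg `i` -/
def split (i : κ) : Γ × Gi i ≃ (κ → Γ) where
  toFun p := ms i p.1 * p.2
  invFun g := (g i, ⟨Function.update g i 1, by simp⟩)
  left_inv p := by
    refine Prod.ext (by simp [p.2.2]) (Subtype.ext ?_)
    ext1 k
    by_cases h : k = i
    · subst h; simp [p.2.2]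
    · simp [h]
  right_inv g := by
    conv_rhs => rw [eq_mul_ms i g, ms_comm (by simp)]

theorem exists_isJ (S : Setting κ H) (i : κ) : ∃ j₀, S.IsJ i j₀ := by
  refine exists_sqrt_rows (fun g : Gi i => innerSL ℂ (S.R g S.ξ)) (C := 1) fun η F => ?_
  have := sum_le_hasSum (F.map (Function.Embedding.subtype _)) (fun _ _ => sq_nonneg _) (S.pars η)
  simpa using this

lemma J_sa (hj : S.IsJ i j₀) : star j₀ = j₀ := sa_of_nonneg hj.1

lemma J_eq (hj : S.IsJ i j₀) (e : Gi i ≃ Gi i) {v w : H}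
    (h : ∀ g, ‖⟪S.R (e g) S.ξ, v⟫_ℂ‖ = ‖⟪S.R g S.ξ, w⟫_ℂ‖) : ‖j₀ v‖ = ‖j₀ w‖ := by
  have h1 := e.hasSum_iff.2 (hj.2 v)
  simp only [Function.comp_def, h] at h1
  exact (sq_eq_sq₀ (norm_nonneg _) (norm_nonneg _)).1 (h1.unique (hj.2 w))

lemma J_eq_zero (hj : S.IsJ i j₀) {v : H} (h : ∀ g, g i = 1 → ⟪S.R g S.ξ, v⟫_ℂ = 0) :
    j₀ v = 0 := by
  have h1 := hj.2 v
  simp only [fun g : Gi i => h g g.2, norm_zero, ne_eq, OfNat.ofNat_ne_zero, not_false_eq_true,
    zero_pow] at h1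
  simpa using h1.unique hasSum_zero

theorem J_comm (hj : S.IsJ i j₀) {h : κ → Γ} (hh : h i = 1) : Commute j₀ (S.R h) :=
  commute_of_norm S.R h hj.1 fun η =>
    J_eq hj ((Equiv.mulLeft h).subtypeEquiv fun g => by simp [hh]) fun g => by
      simp

theorem J_pars (hj : S.IsJ i j₀) (v : H) :
    HasSum (fun μ => ‖j₀ (S.R (ms i μ⁻¹) v)‖ ^ 2) (‖v‖ ^ 2) := by
  refine ((split i).hasSum_iff.2 (S.pars v)).prod_fiberwise fun μ => ?_
  have := hj.2 (S.R (ms i μ⁻¹) v)
  simp only [ms_inv, ← URep.inner_left, ← URep.mul_apply] at this ⊢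
  exact this

theorem J_orth (hj : S.IsJ i j₀) {γ : Γ} (hγ : γ ≠ 1) (v : H) : j₀ (S.π γ (j₀ v)) = 0 := by
  refine J_eq_zero hj fun g hg => ?_
  rw [S.π.inner_right, ← inner_sa (J_sa hj), J_eq_zero hj, inner_zero_left]
  intro k hk
  rw [S.R.inner_left, ← mul_apply_eq_comp, ← (S.comm _ _).eq, mul_apply_eq_comp, ← S.R.mul_apply]
  exact S.orth i _ _ (by simp [hk, hg]) fun h => hγ (inv_eq_one.1 h.1)

theorem J_bessel (hj : S.IsJ i j₀) (z : H) (F : Finset Γ) :
    ∑ γ ∈ F, ‖j₀ (S.π γ⁻¹ z)‖ ^ 2 ≤ ‖j₀‖ ^ 2 * ‖z‖ ^ 2 := by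
  refine sum_rows_le F (fun γ => j₀ * S.π γ⁻¹) (fun γ => ?_) (fun γ _ δ _ h => ?_) z
  · exact (norm_mul_le _ _).trans (mul_le_of_le_one_right (norm_nonneg _) (S.π.norm_le _))
  · ext v
    rw [← ContinuousLinearMap.star_eq_adjoint, star_mul, URep.star_apply, J_sa hj, inv_inv]
    change j₀ (S.π γ⁻¹ (S.π δ (j₀ v))) = 0
    rw [← S.π.mul_apply]
    exact J_orth hj (by rwa [Ne, inv_mul_eq_one]) v

theorem eq_zero_of_inner (S : Setting κ H) {v : H} (h : ∀ g, ⟪S.R g S.ξ, v⟫_ℂ = 0) : v = 0 := by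
  have h1 := S.pars v
  simp only [h, norm_zero, ne_eq, OfNat.ofNat_ne_zero, not_false_eq_true, zero_pow] at h1
  simpa using h1.unique hasSum_zero

theorem ext_R (S : Setting κ H) {A B : H →L[ℂ] H} (h : ∀ g, A (S.R g S.ξ) = B (S.R g S.ξ)) :
    A = B := by
  have : star (A - B) = 0 := by
    ext v
    refine eq_zero_of_inner S fun g => ?_
    rw [ContinuousLinearMap.star_eq_adjoint, ContinuousLinearMap.adjoint_inner_right, sub_apply, h,
      sub_self, inner_zero_left]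
  rwa [star_eq_zero, sub_eq_zero] at this

/-- a `π`-Parseval frame operator commuting with the other legs -/
theorem exists_frame (hj : S.IsJ i j₀) : ∃ d : H →L[ℂ] H, (∀ g, g i = 1 → Commute d (S.R g)) ∧
    ∀ v, HasSum (fun γ => ‖d (S.π γ⁻¹ v)‖ ^ 2) (‖v‖ ^ 2) := by
  obtain ⟨c, hc0, hc⟩ := (Set.countable_univ (α := Γ)).exists_pos_forall_sum_le one_pos
  let T : Γ → H →L[ℂ] H := fun μ => (Real.sqrt (c μ) : ℂ) • (j₀ * S.R (ms i μ⁻¹))
  have hT : ∀ μ v, ‖T μ v‖ ^ 2 = c μ * ‖j₀ (S.R (ms i μ⁻¹) v)‖ ^ 2 := fun μ v => by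
    simp only [T, smul_apply, norm_smul, mul_pow, Complex.norm_real, Real.norm_eq_abs, sq_abs,
      Real.sq_sqrt (hc0 μ).le, mul_apply_eq_comp]
  have hb : ∀ (f : Γ → ℝ) (B : ℝ), 0 ≤ B → (∀ μ, f μ ≤ B) → ∀ F : Finset Γ,
      ∑ μ ∈ F, c μ * f μ ≤ B := fun f B hB hf F => by
    calc ∑ μ ∈ F, c μ * f μ ≤ ∑ μ ∈ F, c μ * B := by gcongr with μ; exacts [(hc0 μ).le, hf μ]
      _ ≤ B := by
        rw [← Finset.sum_mul]
        exact mul_le_of_le_one_left hB (hc F (Set.subset_univ _))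
  obtain ⟨s, hs0, hs⟩ := exists_sqrt_rows T (C := ‖j₀‖ ^ 2) fun v F => by
    simp only [hT]
    refine hb _ _ (by positivity) (fun μ => ?_) F
    rw [← mul_pow, ← S.R.norm_map (ms i μ⁻¹) v]
    gcongr
    exact j₀.le_opNorm _
  have hsR : ∀ g, g i = 1 → Commute s (S.R g) := fun g hg =>
    commute_of_norm S.R g hs0 fun v => by
      refine (sq_eq_sq₀ (norm_nonneg _) (norm_nonneg _)).1 ((hs _).unique ?_)
      convert hs v using 2 with μ
      rw [hT, hT, ← S.R.mul_apply, ← ms_comm hg, S.R.mul_apply, ← mul_apply_eq_comp,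
        (J_comm hj hg).eq, mul_apply_eq_comp, S.R.norm_map]
  have hsB : ∀ v (F : Finset Γ), ∑ γ ∈ F, ‖(s * S.π γ⁻¹) v‖ ^ 2 ≤ ‖j₀‖ ^ 2 * ‖v‖ ^ 2 :=
    fun v F => by
      refine hasSum_le_of_sum_le (hasSum_sum fun γ (_ : γ ∈ F) => hs (S.π γ⁻¹ v)) fun F' => ?_
      simp only [hT, ← Finset.mul_sum]
      refine hb _ _ (by positivity) (fun μ => ?_) F'
      have := J_bessel hj (S.R (ms i μ⁻¹) v) F
      rw [S.R.norm_map] at this
      refine le_of_eq_of_le (Finset.sum_congr rfl fun γ _ => ?_) this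
      rw [← mul_apply_eq_comp (S.R _), ← (S.comm _ _).eq, mul_apply_eq_comp]
  obtain ⟨a, ha0, ha⟩ := exists_sqrt_rows (fun γ => s * S.π γ⁻¹) hsB
  have hle : ∀ v, ‖s v‖ ≤ ‖a v‖ := fun v => by
    refine (sq_le_sq₀ (norm_nonneg _) (norm_nonneg _)).1 ?_
    simpa using le_hasSum (ha v) 1 fun _ _ => sq_nonneg _
  have hd : DenseRange a := denseRange_of_inj (sa_of_nonneg ha0) fun v hv => by
    have h1 : ‖s v‖ ^ 2 = 0 := by simpa [hv] using hle v
    have h2 : ∀ μ, ‖j₀ (S.R (ms i μ⁻¹) v)‖ ^ 2 = 0 := fun μ => by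
      have := le_hasSum (hs v) μ fun _ _ => sq_nonneg _
      rw [hT, h1] at this
      exact le_antisymm (nonpos_of_mul_nonpos_right this (hc0 μ)) (sq_nonneg _)
    have h3 := J_pars hj v
    simp only [h2] at h3
    simpa using h3.unique hasSum_zero
  have haπ : ∀ γ, Commute a (S.π γ) := fun γ => commute_of_norm S.π γ ha0 fun v => by
    refine (sq_eq_sq₀ (norm_nonneg _) (norm_nonneg _)).1
      (((Equiv.mulLeft γ).hasSum_iff.2 (ha _)).unique ?_)
    simpa [Function.comp_def, URep.mul_apply] using ha v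
  have haR : ∀ g, g i = 1 → Commute a (S.R g) := fun g hg => commute_of_norm S.R g ha0 fun v => by
    refine (sq_eq_sq₀ (norm_nonneg _) (norm_nonneg _)).1 ((ha _).unique ?_)
    convert ha v using 2 with γ
    rw [← mul_apply_eq_comp, mul_assoc, (S.comm _ _).eq, ← mul_assoc, (hsR g hg).eq, mul_assoc,
      mul_apply_eq_comp, S.R.norm_map]
  obtain ⟨d, hda⟩ := exists_douglas hd hle
  have hdπ : ∀ γ v, d (S.π γ (a v)) = s (S.π γ v) := fun γ v => by
    rw [← mul_apply_eq_comp (S.π γ), ← (haπ γ).eq, mul_apply_eq_comp, hda]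
  obtain ⟨b, -, hb⟩ := exists_sqrt_rows (fun γ => d * S.π γ⁻¹) (C := 1) fun v F => by
    refine hd.induction_on v (isClosed_le (by fun_prop) (by fun_prop)) fun w => ?_
    simpa [hdπ] using sum_le_hasSum F (fun _ _ => sq_nonneg _) (ha w)
  refine ⟨d, fun g hg => ?_, fun v => ?_⟩
  · refine ContinuousLinearMap.ext fun v => hd.induction_on v
      (isClosed_eq (by fun_prop) (by fun_prop)) fun w => ?_
    change d (S.R g (a w)) = S.R g (d (a w))
    rw [← mul_apply_eq_comp (S.R g), ← (haR g hg).eq, mul_apply_eq_comp, hda, hda,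
      ← mul_apply_eq_comp s, (hsR g hg).eq, mul_apply_eq_comp]
  · have : ‖b v‖ ^ 2 = ‖v‖ ^ 2 := by
      refine hd.induction_on v (isClosed_eq (by fun_prop) (by fun_prop)) fun w => ?_
      refine (hb _).unique ?_
      simpa [hdπ] using ha w
    exact this ▸ hb v

end Crest.Agent.N111.B
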