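import Crest.Agent.N111.B.Set
import Crest.Agent.N111.Stmts

-- ▼ part N111/B/Ind
section

/-!
# Row 111, module B: the induced structure (`IndStmt`).
-/

set_option autoImplicit false

namespace Crest.Agent.N111.B

open MeasureTheory Topology Filter
open scoped ENNReal InnerProductSpace Pointwise

section
variable {H : Type*} [NormedAddCommGroup H] [InnerProductSpace ℂ H]

lemma amp_comm {A B : H →L[ℂ] H} (h : Commute A B) : Commute (amp A) (amp B) := by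
  change _ = _
  rw [← amp_mul, h.eq, amp_mul]

lemma ind_comm_amp {π : URep Γ H} {A : H →L[ℂ] H} (h : ∀ γ, Commute (π γ) A) (g : G) :
    Commute (ind π g) (amp A) := ind_amp (fun γ => (h γ).eq) g

lemma mulf_amp {a : X → ℂ} (ha : BM a) (A : H →L[ℂ] H) : Commute (mulf H a) (amp A) :=
  mulf_fld ha (IsFld.const A)

lemma tr_amp (g : G) (A : H →L[ℂ] H) : Commute (tr H g) (amp A) := tr_mul_fld (IsFld.const A) g

lemma loc_amp (A : H →L[ℂ] H) : Loc (amp A) := loc_fld (IsFld.const A)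

lemma mul1_mul1 {A B : Set X} (hA : MeasurableSet A) (hB : MeasurableSet B) (ξ : L2X H) :
    mul1 H A (mul1 H B ξ) = mul1 H (A ∩ B) ξ := by
  refine Lp.ext ?_
  filter_upwards [mul1_coeFn hA (mul1 H B ξ), mul1_coeFn hB ξ, mul1_coeFn (hA.inter hB) ξ]
    with x h1 h2 h3
  rw [h1, h3]
  by_cases hx : x ∈ A <;> by_cases hx' : x ∈ B <;> simp [hx, hx', h2]

lemma Loc.conj {T : L2X H →L[ℂ] L2X H} (hT : Loc T) (π : URep Γ H) (g : G) :
    Loc (ind π g * T * ind π g⁻¹) := fun A hA ξ => by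
  have hB : MeasurableSet ((fun x => g⁻¹⁻¹ • x) ⁻¹' A) := (measurable_const_smul _) hA
  have e1 := congrArg (fun T : L2X H →L[ℂ] L2X H => T ξ) (ind_mul1 π g⁻¹ hA)
  have e2 := congrArg (fun S : L2X H →L[ℂ] L2X H => S (T (ind π g⁻¹ ξ))) (ind_mul1 π g hB)
  simp only [mul_apply_eq_comp] at e1 e2 ⊢
  rw [e1, hT _ hB, e2]
  congr 2
  ext x
  simp

/-- the cocycle field -/
noncomputable def yv (π : URep Γ H) (g : G) : L2X H →L[ℂ] L2X H := fld μ fun x => π (coc g x)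

lemma isFld_y (π : URep Γ H) (g : G) : IsFld μ fun x => π (coc g x) :=
  isFld_coc π (fun _ => π.norm_le _) g

lemma isFld_y' (π : URep Γ H) (g : G) : IsFld μ fun x => π (coc g x)⁻¹ :=
  isFld_coc (fun γ => π γ⁻¹) (fun _ => π.norm_le _) g

lemma yv_comm {π : URep Γ H} {A : H →L[ℂ] H} (h : ∀ γ, Commute (π γ) A) (g : G) :
    Commute (yv π g) (amp A) := by
  change fld μ _ * fld μ _ = fld μ _ * fld μ _
  rw [← fld_mul (isFld_y π g) (IsFld.const A), ← fld_mul (IsFld.const A) (isFld_y π g)]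
  simp only [(h _).eq]

variable [CompleteSpace H]

lemma star_yv (π : URep Γ H) (g : G) : star (yv π g) = fld μ fun x => π (coc g x)⁻¹ := by
  rw [yv, star_fld (isFld_y π g) (by simpa only [URep.star_apply] using isFld_y' π g)]
  simp only [URep.star_apply]

lemma yv_mem (π : URep Γ H) (g : G) : yv π g ∈ unitary (L2X H →L[ℂ] L2X H) := by
  rw [Unitary.mem_iff, star_yv, yv, ← fld_mul (isFld_y π g) (isFld_y' π g),
    ← fld_mul (isFld_y' π g) (isFld_y π g)]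
  simp

lemma ind_star_yv (π : URep Γ H) (g : G) : ind π g * star (yv π g) = tr H g := by
  rw [ind_eq', mul_assoc, ← yv, (Unitary.mem_iff.1 (yv_mem π g)).2, mul_one]

/-- the average of an operator over `X` -/
noncomputable def av (T : L2X H →L[ℂ] L2X H) : H →L[ℂ] H :=
  ContinuousLinearMap.adjoint (cst H) ∘L T ∘L cst H

lemma inner_av (T : L2X H →L[ℂ] L2X H) (v w : H) : ⟪v, av T w⟫_ℂ = ⟪cst H v, T (cst H w)⟫_ℂ :=
  ContinuousLinearMap.adjoint_inner_right (cst H) v (T (cst H w))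

lemma av_one : av (1 : L2X H →L[ℂ] L2X H) = 1 := by
  ext v; exact ext_inner_left ℂ fun w => by simp [inner_av]

lemma av_nonneg {T : L2X H →L[ℂ] L2X H} (hT : 0 ≤ T) : 0 ≤ av T :=
  (ContinuousLinearMap.nonneg_iff_isPositive _).2
    (((ContinuousLinearMap.nonneg_iff_isPositive _).1 hT).adjoint_conj _)

lemma av_amp (A B : H →L[ℂ] H) (T : L2X H →L[ℂ] L2X H) :
    av (amp A * T * amp B) = A * av T * B := by
  ext v
  simp [av, adj_cst_amp]

lemma av_comm {A : H →L[ℂ] H} {T : L2X H →L[ℂ] L2X H} (h : Commute (amp A) T) :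
    Commute A (av T) := by
  have h1 := av_amp A 1 T
  have h2 := av_amp 1 A T
  simp only [amp_one, mul_one, one_mul] at h1 h2
  change _ = _
  rw [← h1, ← h2, h.eq]

/-- `av` as a linear map -/
noncomputable def avL : (L2X H →L[ℂ] L2X H) →ₗ[ℂ] (H →L[ℂ] H) where
  toFun := av
  map_add' S T := by ext v; simp [av]
  map_smul' c T := by ext v; simp [av]

end

lemma exists_nm_le (r : ℝ) : ∃ R, ∀ a ∈ box r, ∀ b ∈ box r, nm (a * b⁻¹) ≤ R := by
  obtain ⟨R, hR0, hR⟩ := exists_subset_box ((isCompact_box r).mul (isCompact_box r).inv)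
  refine ⟨R, fun a ha b hb => ?_⟩
  have := hR (Set.mul_mem_mul ha (Set.inv_mem_inv.2 hb))
  exact (pi_norm_le_iff_of_nonneg hR0).2 fun i => (pi_norm_le_iff_of_nonneg hR0).2 fun j => this i j

variable {κ H : Type} [Fintype κ] [DecidableEq κ] [NormedAddCommGroup H] [InnerProductSpace ℂ H]
  [CompleteSpace H] {S : Setting κ H} {i : κ} {j₀ : H →L[ℂ] H}

/-- the coefficients -/
def Cs (S : Setting κ H) (i : κ) : Set (L2X H →L[ℂ] L2X H) :=
  {T | ∃ a : X → ℂ, BM a ∧ ∃ g : κ → Γ, g i = 1 ∧ T = mulf H a * amp (S.R g)}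

lemma amp_mem {g : κ → Γ} (hg : g i = 1) : amp (S.R g) ∈ Cs S i :=
  ⟨_, BM.const 1, g, hg, by rw [mulf_one, one_mul]⟩

lemma mulf_mem {a : X → ℂ} (ha : BM a) : mulf H a ∈ Cs S i := ⟨a, ha, 1, rfl, by simp⟩

lemma mem_N {Y : L2X H →L[ℂ] L2X H} (h1 : ∀ a, BM a → Commute (mulf H a) Y)
    (h2 : ∀ g, g i = 1 → Commute (amp (S.R g)) Y) : Y ∈ (Cs S i).centralizer := by
  rintro _ ⟨a, ha, g, hg, rfl⟩
  exact ((h1 a ha).mul_left (h2 g hg)).eq

lemma star_mem_C {c : L2X H →L[ℂ] L2X H} (hc : c ∈ Cs S i) : star c ∈ Cs S i := by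
  obtain ⟨a, ha, g, hg, rfl⟩ := hc
  refine ⟨_, bm_star ha, g⁻¹, by simp [hg], ?_⟩
  rw [star_mul, star_amp, star_mulf ha, URep.star_apply, (mulf_amp (bm_star ha) _).eq]

variable {Y : L2X H →L[ℂ] L2X H}

lemma N_loc (hY : Y ∈ (Cs S i).centralizer) : Loc Y := fun _ hA ξ =>
  (congrArg (fun T : L2X H →L[ℂ] L2X H => T ξ) (hY _ (mulf_mem (bm_indicator hA)))).symm

lemma N_star (hY : Y ∈ (Cs S i).centralizer) : star Y ∈ (Cs S i).centralizer := fun c hc => by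
  simpa using (congrArg star (hY _ (star_mem_C hc))).symm

lemma N_Q (hY : Y ∈ (Cs S i).centralizer) (h : ∀ μ, Commute Y (amp (S.R (ms i μ)))) :
    Y ∈ Qalg (Set.range S.R) := by
  refine ⟨?_, fun A hA => (N_loc hY).comp_eq A hA⟩
  rintro _ ⟨g, rfl⟩
  rw [eq_mul_ms i g, map_mul, amp_mul]
  exact (Commute.mul_right (hY _ (amp_mem (by simp))).symm (h _)).eq

/-- the key exchange identity -/
theorem key (hj : S.IsJ i j₀) (hY : Y ∈ (Cs S i).centralizer) (γ : Γ) (h : κ → Γ) :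
    ∀ᵐ x ∂μ, ‖j₀ (Y (cst H (S.π γ (S.R h S.ξ))) x)‖
      = ‖j₀ (S.π γ⁻¹ (S.R h⁻¹ (star Y (cst H S.ξ) x)))‖ := by
  have h1 : ∀ k : Gi i, ∀ᵐ x ∂μ, ⟪S.R k S.ξ, Y (cst H (S.π γ (S.R h S.ξ))) x⟫_ℂ
      = ⟪S.R k (star Y (cst H S.ξ) x), S.π γ (S.R h S.ξ)⟫_ℂ := fun k => by
    have e : star Y (cst H (S.R k S.ξ)) = amp (S.R k) (star Y (cst H S.ξ)) := by
      rw [← amp_cst, ← mul_apply_eq_comp, ← N_star hY _ (amp_mem k.2), mul_apply_eq_comp]
    filter_upwards [(N_loc hY).ae_adj (cst H (S.R k S.ξ)) (cst H (S.π γ (S.R h S.ξ))),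
      cst_coeFn (S.R k S.ξ), cst_coeFn (S.π γ (S.R h S.ξ)),
      amp_coeFn (S.R k) (star Y (cst H S.ξ))] with x h1 h2 h3 h4
    rw [← h2, h1, h3, e, h4]
  filter_upwards [ae_all_iff.2 h1] with x hx
  refine J_eq hj (((Equiv.inv _).trans (MulAut.conj h).toEquiv).subtypeEquiv fun g => by simp)
    fun g => ?_
  rw [hx, S.R.inner_left, norm_inner_symm, ← S.π.inner_left, ← S.R.inner_left]
  simp only [← mul_apply_eq_comp, ← (S.comm _ _).eq, ← mul_assoc]
  simp only [mul_assoc, ← map_mul]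
  simp [mul_assoc]

theorem key' (hj : S.IsJ i j₀) (hY : Y ∈ (Cs S i).centralizer) (ν : Γ) :
    ‖amp j₀ (Y (amp (S.R (ms i ν⁻¹)) (cst H S.ξ)))‖
      = ‖amp j₀ (amp (S.R (ms i ν)) (star Y (cst H S.ξ)))‖ := by
  refine (sq_eq_sq₀ (norm_nonneg _) (norm_nonneg _)).1 ?_
  rw [norm_sq_eq_integral, norm_sq_eq_integral, amp_cst]
  refine integral_congr_ae ?_
  filter_upwards [key hj hY 1 (ms i ν⁻¹), amp_coeFn j₀ (Y (cst H (S.R (ms i ν⁻¹) S.ξ))),
    amp_coeFn j₀ (amp (S.R (ms i ν)) (star Y (cst H S.ξ))),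
    amp_coeFn (S.R (ms i ν)) (star Y (cst H S.ξ))] with x h1 h2 h3 h4
  rw [h2, h3, h4]
  simpa [ms_inv] using h1

theorem pars_amp (hj : S.IsJ i j₀) (η : L2X H) :
    HasSum (fun ν => ‖amp j₀ (amp (S.R (ms i ν⁻¹)) η)‖ ^ 2) (‖η‖ ^ 2) := by
  refine hasSum_norm_sq_of_ae ?_
  filter_upwards [ae_all_iff.2 fun ν => amp_coeFn j₀ (amp (S.R (ms i ν⁻¹)) η),
    ae_all_iff.2 fun ν => amp_coeFn (S.R (ms i ν⁻¹)) η] with x h1 h2
  simpa only [h1, h2] using J_pars hj (η x)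

theorem dense_of (S : Setting κ H) {D : Set (L2X H)} (h : ∀ A, MeasurableSet A → ∀ n : ℕ,
    (∀ x ∈ A, sec x ∈ box n) → ∀ g, mul1 H A (cst H (S.R g S.ξ)) ∈ D) :
    Dense (Submodule.span ℂ D : Set (L2X H)) := by
  rw [Submodule.dense_iff_topologicalClosure_eq_top, Submodule.topologicalClosure_eq_top_iff,
    eq_bot_iff]
  intro ζ hζ
  have hB : ∀ n : ℕ, MeasurableSet (sec ⁻¹' box n) := fun n =>
    measurable_sec (isCompact_box n).measurableSet
  have h1 : ∀ (n : ℕ) g, ∀ᵐ x ∂μ, sec x ∈ box n → ⟪S.R g S.ξ, ζ x⟫_ℂ = 0 := fun n g => by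
    have h2 := ae_inner_eq (a := mul1 H (sec ⁻¹' box n) (cst H (S.R g S.ξ))) (b := ζ)
      (c := (0 : L2X H)) (d := (0 : L2X H)) fun A hA => by
        rw [mul1_mul1 hA (hB n), inner_zero_right]
        exact hζ _ (Submodule.subset_span (h _ (hA.inter (hB n)) n (fun x hx => hx.2) g))
    filter_upwards [h2, mul1_coeFn (hB n) (cst H (S.R g S.ξ)), cst_coeFn (S.R g S.ξ),
      Lp.coeFn_zero H 2 μ] with x h3 h4 h5 h6 hx
    rwa [h4, h6, Set.indicator_of_mem (show x ∈ sec ⁻¹' box n from hx), h5, Pi.zero_apply,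
      inner_zero_left] at h3
  refine Lp.ext ?_
  filter_upwards [ae_all_iff.2 fun n => ae_all_iff.2 (h1 n), Lp.coeFn_zero H 2 μ] with x h2 h3
  obtain ⟨R, -, hR⟩ := exists_subset_box (isCompact_singleton (x := sec x))
  obtain ⟨n, hn⟩ := exists_nat_ge R
  rw [h3]
  exact eq_zero_of_inner S fun g => h2 n g fun k l => (hR rfl k l).trans hn

theorem gen_mem {A : Set X} (hA : MeasurableSet A) (g : κ → Γ) :
    ∃ a ∈ Cs S i, ∃ ν, mul1 H A (cst H (S.R g S.ξ)) = a (amp (S.R (ms i ν)) (cst H S.ξ)) :=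
  ⟨_, ⟨_, bm_indicator hA, Function.update g i 1, by simp, rfl⟩, g i, by
    rw [mul_apply_eq_comp, amp_cst, amp_cst, ← S.R.mul_apply, ← eq_mul_ms]; rfl⟩

theorem sep_bound (hj : S.IsJ i j₀) {A : Set X} (hA : MeasurableSet A) {r : ℝ}
    (hr : ∀ x ∈ A, sec x ∈ box r) (h : κ → Γ) : ∃ B R : ℝ,
    ∀ Y ∈ (Cs S i).centralizer, ∀ (n : ℕ) (g : Fin n → G),
      (∀ l k, l ≠ k → R < nm ((g l)⁻¹ * g k)) →
      ∑ l, ‖amp j₀ (Y (ind S.π (g l) (mul1 H A (cst H (S.R h S.ξ)))))‖ ^ 2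
        ≤ B * ‖star Y (cst H S.ξ)‖ ^ 2 := by
  classical
  obtain ⟨R, hR⟩ := exists_nm_le r
  refine ⟨‖j₀‖ ^ 2, R, fun Y hY n g hg => sum_norm_sq_le_of_ae _ ?_⟩
  have h1 : ∀ u : G, ∀ᵐ x ∂μ, ‖amp j₀ (Y (ind S.π u (mul1 H A (cst H (S.R h S.ξ))))) x‖ ^ 2
      = if u⁻¹ • x ∈ A then
        ‖j₀ (S.π (coc u⁻¹ x)⁻¹⁻¹ (S.R h⁻¹ (star Y (cst H S.ξ) x)))‖ ^ 2 else 0 := fun u => by
    have hB : MeasurableSet ((fun x => u⁻¹ • x) ⁻¹' A) := (measurable_const_smul _) hA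
    rw [← mul_apply_eq_comp (ind S.π u), ind_mul1 _ _ hA, mul_apply_eq_comp, N_loc hY _ hB]
    filter_upwards [amp_coeFn j₀ (mul1 H _ (Y (ind S.π u (cst H (S.R h S.ξ))))),
      mul1_coeFn hB (Y (ind S.π u (cst H (S.R h S.ξ)))),
      (N_loc hY).ae_piece (c := fun x => (coc u⁻¹ x)⁻¹) (by fun_prop)
        (v := fun δ => S.π δ (S.R h S.ξ)) (ind_cst_coeFn S.π u _),
      ae_all_iff.2 fun γ => key hj hY γ h] with x h2 h3 h4 h5
    rw [h2, h3]
    split_ifs with hx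
    · rw [Set.indicator_of_mem (by exact hx), h4, h5]
    · rw [Set.indicator_of_notMem (by exact hx)]; simp
  filter_upwards [ae_all_iff.2 fun l => h1 (g l)] with x hx
  simp only [hx]
  rw [← Finset.sum_filter, ← Finset.sum_image (g := fun l => (coc (g l)⁻¹ x)⁻¹)
    (f := fun γ => ‖j₀ (S.π γ⁻¹ (S.R h⁻¹ (star Y (cst H S.ξ) x)))‖ ^ 2)]
  · simpa using J_bessel hj (S.R h⁻¹ (star Y (cst H S.ξ) x)) _
  · intro l hl k hk e
    by_contra hne
    refine (hg l k hne).not_ge ?_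
    have := hR _ (hr _ (Finset.mem_filter.1 hl).2) _ (hr _ (Finset.mem_filter.1 hk).2)
    refine le_of_eq_of_le (congrArg nm ?_) this
    have e1 := mul_sec (g l)⁻¹ x
    have e2 := mul_sec (g k)⁻¹ x
    rw [inv_injective e] at e1
    rw [← mul_inv_eq_iff_eq_mul.2 e1, ← mul_inv_eq_iff_eq_mul.2 e2]
    group

omit [CompleteSpace H] in
lemma erg_smul {T : Set (H →L[ℂ] H)} {ρ L : URep Γ H} {Ω : H} (h : ErgData T ρ L Ω) {c : ℂ}
    (hc : c ≠ 0) : ErgData T ρ L (c • Ω) where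
  comm := h.comm
  L_mem := h.L_mem
  L_Ω γ := by rw [map_smul, map_smul, h.L_Ω]
  cyc := h.cyc.mono (Submodule.span_le.2 (by
    rintro _ ⟨z, hz, rfl⟩
    have : z Ω = c⁻¹ • z (c • Ω) := by simp [hc]
    rw [this]
    exact Submodule.smul_mem _ _ (Submodule.subset_span ⟨z, hz, rfl⟩)))
  erg v hv := by
    obtain ⟨d, rfl⟩ := h.erg v hv
    exact ⟨d * c⁻¹, by simp [smul_smul, hc]⟩

/-- the induced structure -/
noncomputable def indS (hj : S.IsJ i j₀) : Ind (L2X H) where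
  U := ind S.π
  ρ := ampRep (S.R.comp (MonoidHom.mulSingle (fun _ => Γ) i))
  C := Cs S i
  j := amp j₀
  ξ := cst H S.ξ
  y := yv S.π
  cont := ind_cont _
  Uρ g _ := ind_comm_amp (fun _ => S.comm _ _) g
  one_C := mulf_one (H := H) ▸ mulf_mem (BM.const 1)
  mul_C := by
    rintro _ ⟨a, ha, g, hg, rfl⟩ _ ⟨b, hb, h, hh, rfl⟩
    refine ⟨_, ha.mul hb, g * h, by simp [hg, hh], ?_⟩
    rw [mulf_mul ha hb, map_mul, amp_mul, mul_assoc, mul_assoc, ← mul_assoc (amp _),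
      ← (mulf_amp hb _).eq, mul_assoc]
  star_C _ := star_mem_C
  conj_C := by
    rintro _ ⟨a, ha, h, hh, rfl⟩ g
    refine ⟨_, ha.comp (measurable_const_smul g⁻¹), h, hh, ?_⟩
    rw [← ind_mulf S.π g ha]
    simp only [mul_assoc, (ind_comm_amp (fun γ => S.comm γ h) g⁻¹).eq]
  Cρ := by
    rintro _ ⟨a, ha, h, hh, rfl⟩ ν
    refine (mulf_amp ha _).mul_left (amp_comm ?_)
    change S.R h * S.R (ms i ν) = S.R (ms i ν) * S.R h
    rw [← map_mul, ms_comm hh, map_mul]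
  Cj := by
    rintro _ ⟨a, ha, h, hh, rfl⟩
    exact (mulf_amp ha _).mul_left (amp_comm (J_comm hj hh).symm)
  j_sa := by rw [star_amp, J_sa hj]
  pars := pars_amp hj
  ξ_ne h := S.ξ_ne (by simpa using congrArg norm h)
  dense := dense_of S fun _ hA _ _ g => gen_mem hA g
  bes Y hY F := by
    have h1 := (Equiv.inv Γ).hasSum_iff.2 (pars_amp hj (star Y (cst H S.ξ)))
    refine le_of_eq_of_le (Finset.sum_congr rfl fun ν _ => ?_)
      (sum_le_hasSum F (fun _ _ => sq_nonneg _) h1)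
    simp only [Equiv.inv_apply, inv_inv]
    exact congrArg (· ^ 2) (key' hj hY ν)
  sym T hT hρ ν := by
    rw [← mul_apply_eq_comp (ampRep _ _), ← (hρ _).eq]
    exact key' hj hT ν
  y_N g := mem_N (fun _ ha => mulf_fld ha (isFld_y _ g))
    fun h _ => (yv_comm (fun γ => S.comm γ h) g).symm
  y_ρ g _ := yv_comm (fun _ => S.comm _ _) g
  y_un := yv_mem _
  V_j g := by rw [ind_star_yv]; exact tr_amp g _
  V_ξ g := by rw [← mul_apply_eq_comp, ind_star_yv, tr_cst]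
  erg T hT hρ k l h hb := by
    obtain ⟨L, hL⟩ := S.erg
    exact hL.scalar_of_tv h one_ne_zero 1 (N_Q hT hρ) (by simpa using (hb 1).eq.symm)
  mix T hT hρ a b k l h := by
    obtain ⟨L, hL⟩ := S.erg
    have h0 : (‖S.ξ‖ : ℂ) ≠ 0 := by simpa using S.ξ_ne
    have hL' := erg_smul hL (inv_ne_zero h0)
    have := hL'.mixing_Q (by simp [norm_smul, S.ξ_ne]) ((ind_cont hL'.ad).mixing h) (N_Q hT hρ)
    convert this using 2
    simp only [map_smul, inner_smul_left, inner_smul_right, map_inv₀, Complex.conj_ofReal, norm_cst]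
    push_cast
    field_simp
  trk := by
    obtain ⟨ω, h1, h2, h3⟩ := S.tr i
    refine ⟨ω ∘ₗ avL, by simpa [avL, av_one] using h1, fun T hT => h2 _ (av_nonneg hT),
      fun T hT hU ν => ?_⟩
    change ω (av (amp (S.R (ms i ν)) * T * amp (S.R (ms i ν⁻¹)))) = ω (av T)
    rw [av_amp, ms_inv]
    refine h3 _ (fun γ => ?_) (fun g hg => (av_comm (hT _ (amp_mem hg))).symm) ν
    ext v
    exact (N_loc hT).const_of_intertwine
      (fun g ξ => congrArg (fun A : L2X H →L[ℂ] L2X H => A ξ) (hU g).eq) γ v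
  sep := dense_of S fun _ hA _ hr g => ⟨gen_mem hA g, sep_bound hj hA hr g⟩

theorem indStmt : IndStmt := fun _ _ _ _ _ _ _ S i => by
  obtain ⟨j₀, hj⟩ := exists_isJ S i
  exact ⟨j₀, indS hj, hj, rfl, fun _ => rfl, rfl, rfl, rfl, fun _ => rfl⟩

end Crest.Agent.N111.B
end

-- ▼ part N111/B/Two

/-!
# Row 111, module B: `TwoStmt`, `CoreIStmt`, `CoreIIStmt`.
-/

set_option autoImplicit false

namespace Crest.Agent.N111.B

open MeasureTheory Topology Filter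
open scoped ENNReal InnerProductSpace

section
variable {κ H : Type} [Fintype κ] [DecidableEq κ] [NormedAddCommGroup H] [InnerProductSpace ℂ H]
  [CompleteSpace H] {S : Setting κ H} {i : κ} {j₀ : H →L[ℂ] H}

lemma N_eq {I : Ind (L2X H)} (h : S.IsInd i j₀ I) : I.N = (Cs S i).centralizer := by
  rw [Ind.N, h.C, Cs]

theorem J_on (hj : S.IsJ i j₀) (hon : Orthonormal ℂ fun g => S.R g S.ξ) (g : κ → Γ) :
    j₀ (S.R g S.ξ) = if g i = 1 then S.R g S.ξ else 0 := by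
  split_ifs with hg
  · have h1 : j₀ (j₀ (S.R g S.ξ)) = S.R g S.ξ := ext_inner_left ℂ fun η => by
      rw [← inner_sa (J_sa hj)]
      refine (hasSum_inner (T := fun k : Gi i => innerSL ℂ (S.R k S.ξ)) hj.2 η _).unique ?_
      convert hasSum_single (⟨g, hg⟩ : Gi i) fun k hk => ?_ using 1
      · simp only [innerSL_apply_apply, inner_self_c, hon.1 g]
        simp
      · simp only [innerSL_apply_apply]
        rw [hon.2 (fun h => hk (Subtype.ext h)), inner_zero_right]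
    have h2 := ((ContinuousLinearMap.nonneg_iff_isPositive _).1 hj.1).re_inner_nonneg_right
      (j₀ (S.R g S.ξ) - S.R g S.ξ)
    rw [map_sub, h1, ← neg_sub (j₀ _), inner_neg_right, map_neg, inner_self_eq_norm_sq] at h2
    rw [← sub_eq_zero, ← norm_eq_zero]
    nlinarith [norm_nonneg (j₀ (S.R g S.ξ) - S.R g S.ξ)]
  · exact J_eq_zero hj fun k hk => hon.2 fun h => hg (h ▸ hk)

end

section
variable {H : Type} [NormedAddCommGroup H] [InnerProductSpace ℂ H] [CompleteSpace H]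

theorem twoStmt : TwoStmt := fun H _ _ _ S s j₀ I hs h => by
  have hj := J_on h.hj hs.on
  have hsR : ∀ g, s (S.R g S.ξ) = S.R (g ∘ Equiv.swap 1 2) S.ξ := fun g => by
    rw [← hs.s_R, mul_apply_eq_comp, mul_apply_eq_comp, hs.s_ξ]
  have hsw : ∀ g : Fin 3 → Γ, (g ∘ Equiv.swap 1 2) ∘ Equiv.swap 1 2 = g := fun g => by
    ext1 k; simp
  have hj' : ∀ g, (s * j₀ * s) (S.R g S.ξ) = if g 2 = 1 then S.R g S.ξ else 0 := fun g => by
    simp only [mul_apply_eq_comp, hsR, hj, Function.comp_apply, Equiv.swap_apply_left]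
    split_ifs
    · rw [hsR, hsw]
    · rw [map_zero]
  refine ⟨by rw [star_amp, hs.s_sa], by rw [← amp_mul, hs.s_s, amp_one], fun g => ?_, fun g => ?_,
    by rw [h.ξ, amp_cst, hs.s_ξ], fun ν => ?_, ?_, ?_, fun ν hν => ?_, ?_⟩
  · rw [h.U]; exact (ind_comm_amp (fun γ => (hs.s_π γ).symm) g).symm
  · rw [h.y]; exact (yv_comm (fun γ => (hs.s_π γ).symm) g).symm
  · rw [h.ρ, h.C, ← amp_mul, ← amp_mul, hs.s_R]
    exact amp_mem (by simp)
  · rw [h.C]
    rintro _ ⟨a, ha, g, hg, rfl⟩ ν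
    set k := (g * ms 1 ν) ∘ Equiv.swap (1 : Fin 3) 2 with hk
    refine ⟨_, ⟨a, ha, Function.update k 1 1, by simp, rfl⟩, k 1, ?_⟩
    rw [h.ρ, h.ρ, mul_assoc (mulf H a), mul_assoc (mulf H a), ← amp_mul, ← amp_mul, ← map_mul,
      ← map_mul, ← eq_mul_ms, hk, ← hs.s_R, amp_mul, amp_mul, ← mul_assoc, ← (mulf_amp ha s).eq]
    simp only [mul_assoc]
  · rw [h.j, ← amp_mul]
    congr 1
    refine ext_R S fun g => ?_
    simp only [mul_apply_eq_comp, hj]
    split_ifs with hg <;> simp [hj, hg]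
  · rw [h.j, h.ρ, ← amp_mul, ← amp_mul]
    have : j₀ * S.R (Pi.mulSingle 1 ν) * j₀ = 0 := by
      refine ext_R S fun g => ?_
      simp only [mul_apply_eq_comp, hj]
      split_ifs with hg
      · rw [← URep.mul_apply, hj, if_neg (by simpa [hg] using hν), zero_apply]
      · simp
    rw [this]
    exact fld_zero
  · rw [h.j, ← amp_mul, ← amp_mul]
    refine amp_comm (ext_R S fun g => ?_)
    rw [mul_apply_eq_comp j₀, mul_apply_eq_comp _ j₀, hj, hj']
    split_ifs with h1 h2 h2 <;> simp only [hj, hj', h1, h2, if_true, if_false, map_zero]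

theorem coreIStmt : CoreIStmt := fun H _ _ _ S j₀ I P h hP => by
  have hL : Loc (P 1) := N_loc (N_eq h ▸ hP.mem 1)
  obtain ⟨η, hη⟩ : ∃ η, P 1 η ≠ 0 := by
    by_contra! h0
    exact hP.ne (ContinuousLinearMap.ext h0)
  have h1 : ∀ g : Unit → Γ, ∀ᵐ x ∂μ, g ≠ 1 → ⟪P 1 η x, S.R g (P 1 η x)⟫_ℂ = 0 := fun g => by
    by_cases hg : g = 1
    · simp [hg]
    have e : P 1 (amp (S.R g) (P 1 η)) = 0 := by
      have := hP.wand 1 (g ()) fun h => hg (funext fun _ => h)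
      rw [h.ρ] at this
      exact congrArg (fun T : L2X H →L[ℂ] L2X H => T η) this
    filter_upwards [hL.ae_adj η (amp (S.R g) (P 1 η)), amp_coeFn (S.R g) (P 1 η),
      Lp.coeFn_zero H 2 μ] with x h1 h2 h3 _
    rw [hP.sa, h2, e, h3, Pi.zero_apply, inner_zero_right] at h1
    exact h1.symm
  obtain ⟨v, hv0, hv⟩ : ∃ v : H, v ≠ 0 ∧ ∀ g, g ≠ 1 → ⟪v, S.R g v⟫_ℂ = 0 := by
    by_contra! h0
    refine hη (Lp.ext ?_)
    filter_upwards [ae_all_iff.2 h1, Lp.coeFn_zero H 2 μ] with x h2 h3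
    by_contra h4
    obtain ⟨g, hg, hg'⟩ := h0 _ (h3 ▸ h4)
    exact hg' (h2 g hg)
  have hn : (‖v‖ : ℂ) ≠ 0 := by simpa using hv0
  have hon : Orthonormal ℂ fun g : Unit → Γ => S.R g⁻¹ ((‖v‖ : ℂ)⁻¹ • v) := by
    refine ⟨fun g => by simp [norm_smul, hv0], fun g k hgk => ?_⟩
    simp only
    rw [S.R.inner_left, ← S.R.mul_apply, map_smul, inner_smul_left, inner_smul_right,
      hv _ (by rwa [inv_inv, Ne, mul_inv_eq_one]), mul_zero, mul_zero]
  have h2 : ‖(‖v‖ : ℂ)⁻¹ • v‖ ^ 2 ≤ ‖S.ξ‖ ^ 2 := by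
    refine hasSum_le_of_sum_le (S.pars _) fun F => ?_
    refine le_of_eq_of_le (Finset.sum_congr rfl fun g _ => ?_)
      (hon.sum_inner_products_le (s := F) S.ξ)
    rw [S.R.inner_left, norm_inner_symm]
  simpa [norm_smul, hv0] using (sq_le_sq₀ (norm_nonneg _) (norm_nonneg _)).1 h2

lemma inner_integral_av (T : L2X H →L[ℂ] L2X H) (v w : H) :
    ∫ x, ⟪v, T (cst H w) x⟫_ℂ ∂μ = ⟪v, av T w⟫_ℂ := by rw [inner_av, inner_cst_left]

lemma integral_inner_av (T : L2X H →L[ℂ] L2X H) (v w : H) :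
    ∫ x, ⟪T (cst H w) x, v⟫_ℂ ∂μ = ⟪av T w, v⟫_ℂ := by
  rw [← inner_conj_symm, ← inner_integral_av, ← integral_conj]
  simp only [inner_conj_symm]

lemma star_av (T : L2X H →L[ℂ] L2X H) : star (av T) = av (star T) := by
  simp only [av, ContinuousLinearMap.star_eq_adjoint, ContinuousLinearMap.adjoint_comp,
    ContinuousLinearMap.adjoint_adjoint, ContinuousLinearMap.comp_assoc]

/-- commutation along all translates descends to the averages -/
theorem av_commute {π : URep Γ H} {P Q : L2X H →L[ℂ] L2X H} (hP : Loc P) (hQ : Loc Q)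
    (hP' : star P = P) (hQ' : star Q = Q) (h : ∀ g, Commute P (ind π g * Q * ind π g⁻¹)) (γ : Γ) :
    Commute (av P) (π γ * av Q * π γ⁻¹) := by
  have hW : ∀ (g : G) (b : H), ∀ᵐ x ∂μ, (ind π g * Q * ind π g⁻¹) (cst H b) (g • x)
      = π (coc g x) (Q (cst H (π (coc g x)⁻¹ b)) x) := fun g b => by
    filter_upwards [ind_coeFn' π g (Q (ind π g⁻¹ (cst H b))),
      hQ.ae_piece (c := fun x => (coc g⁻¹⁻¹ x)⁻¹) (by fun_prop) (v := fun δ => π δ b)
        (ind_cst_coeFn π g⁻¹ b)] with x h1 h2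
    rw [mul_apply_eq_comp, mul_apply_eq_comp, h1, h2, inv_inv]
  ext b
  refine ext_inner_left ℂ fun a => ?_
  have h1 := unfold_ae (F := fun x x' δ => ⟪P (cst H a) x', π δ (Q (cst H (π δ⁻¹ b)) x)⟫_ℂ
      = ⟪π δ (Q (cst H (π δ⁻¹ a)) x), P (cst H b) x'⟫_ℂ) (fun δ => ?_) (fun g => ?_) γ
  · have h2 : ∀ᵐ x ∂μ, ⟪π γ⁻¹ (av P a), Q (cst H (π γ⁻¹ b)) x⟫_ℂ
        = ⟪Q (cst H (π γ⁻¹ a)) x, π γ⁻¹ (av P b)⟫_ℂ := by
      filter_upwards [h1] with x hx
      rw [← π.inner_right, ← π.inner_left, ← integral_inner_av, ← inner_integral_av]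
      exact integral_congr_ae hx
    have h3 := integral_congr_ae h2
    rw [integral_inner_av, inner_integral_av, ← π.inner_right,
      inner_sa (by rw [star_av, hP']), inner_sa (by rw [star_av, hQ']), ← π.inner_right] at h3
    exact h3
  · have m1 : ∀ ζ : L2X H, StronglyMeasurable fun p : X × X => ζ p.2 := fun ζ =>
      (Lp.stronglyMeasurable _).comp_measurable measurable_snd
    have m2 : ∀ ζ : L2X H, StronglyMeasurable fun p : X × X => π δ (ζ p.1) := fun ζ =>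
      (π δ).continuous.comp_stronglyMeasurable
        ((Lp.stronglyMeasurable _).comp_measurable measurable_fst)
    exact ((m1 _).inner (m2 _)).measurableSet_eq_fun ((m2 _).inner (m1 _))
  · have hW' : star (ind π g * Q * ind π g⁻¹) = ind π g * Q * ind π g⁻¹ := by
      simp only [star_mul, URep.star_apply, hQ', inv_inv, mul_assoc]
    filter_upwards [hW g a, hW g b,
      ae_smul g (hP.ae_adj (cst H a) ((ind π g * Q * ind π g⁻¹) (cst H b))),
      ae_smul g ((hQ.conj π g).ae_adj (cst H a) (P (cst H b)))] with x h1 h2 h3 h4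
    rw [hP'] at h3
    rw [hW'] at h4
    rw [← h1, ← h2, ← h3, ← h4, ← mul_apply_eq_comp P, (h g).eq, mul_apply_eq_comp _ P]

theorem coreIIStmt : CoreIIStmt := fun H _ _ _ S s j₀ I P hs h hP hc => by
  have hL : Loc (P 1) := N_loc (N_eq h ▸ hP.mem 1)
  have hin : ∀ η, ⟪η, P 1 η⟫_ℂ = ((‖P 1 η‖ ^ 2 : ℝ) : ℂ) := fun η => by
    rw [← re_inner_sq (hP.sa 1), hP.idem]
  refine ⟨Set.range fun γ => S.π γ * av (P 1) * S.π γ⁻¹, ?_, ⟨_, ⟨1, rfl⟩, fun h0 => hP.ne ?_⟩,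
    ?_, ?_, ?_, ?_⟩
  · rintro _ ⟨γ, rfl⟩
    have : 0 ≤ P 1 := by
      rw [← hP.idem]
      nth_rw 1 [← hP.sa]
      exact star_mul_self_nonneg _
    simp only [← S.π.star_apply]
    exact star_right_conjugate_nonneg (av_nonneg this) _
  · refine hL.ext_cst (fun _ _ _ => by simp) fun v => ?_
    have h1 := inner_av (P 1) v v
    simp only [map_one, inv_one, one_mul, mul_one] at h0
    rw [h0, hin] at h1
    simpa using h1.symm
  · rintro _ ⟨δ, rfl⟩ γ
    exact ⟨γ * δ, by simp only [mul_inv_rev, map_mul, mul_assoc]⟩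
  · rintro _ ⟨γ, rfl⟩ Z h1 h2 h3
    refine ((h1 _).mul_right (av_comm (hP.gen _ (fun g => ?_) (fun ν => ?_) ?_ 1))).mul_right (h1 _)
    · rw [h.U]; exact (ind_comm_amp (fun γ => (h1 γ).symm) g).symm
    · rw [h.ρ]; exact amp_comm (h2 ν)
    · rw [h.j]; exact amp_comm h3
  · rintro _ ⟨γ, rfl⟩
    refine ⟨‖P 1‖ ^ 2, fun η F => ?_⟩
    have := sum_rows_le F (fun ν => P 1 * I.ρ ν) (C := ‖P 1‖) (fun ν =>
      (norm_mul_le _ _).trans (mul_le_of_le_one_right (norm_nonneg _) (I.ρ.norm_le _)))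
      (fun ν _ ν' _ hne => ?_) (cst H (S.π γ⁻¹ η))
    · rw [norm_cst, URep.norm_map] at this
      refine le_of_eq_of_le (Finset.sum_congr rfl fun ν _ => ?_) this
      rw [mul_apply_eq_comp, mul_apply_eq_comp, S.π.inner_right, inner_av, hin, Complex.ofReal_re,
        mul_apply_eq_comp, h.ρ, amp_cst, ← mul_apply_eq_comp (S.π _), (S.comm _ _).eq,
        mul_apply_eq_comp]
    · rw [← ContinuousLinearMap.star_eq_adjoint, star_mul, URep.star_apply, hP.sa]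
      change P 1 * I.ρ ν * (I.ρ ν'⁻¹ * P 1) = 0
      rw [← hP.wand 1 (ν * ν'⁻¹) (by rwa [Ne, mul_inv_eq_one]), map_mul]
      simp only [mul_assoc]
  · rintro _ ⟨γ, rfl⟩ _ ⟨δ, rfl⟩
    have h1 := av_commute (π := S.π) hL (((loc_amp s).mul hL).mul (loc_amp s)) (hP.sa 1)
      (by simp only [star_mul, star_amp, hs.s_sa, hP.sa, mul_assoc]) (fun g => ?_) (γ⁻¹ * δ)
    · have h2 : Commute (S.π γ * av (P 1) * S.π γ⁻¹) (S.π γ * (S.π (γ⁻¹ * δ)
          * av (amp s * P 1 * amp s) * S.π (γ⁻¹ * δ)⁻¹) * S.π γ⁻¹) := by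
        have e : ∀ A B : H →L[ℂ] H, S.π γ * A * S.π γ⁻¹ * (S.π γ * B * S.π γ⁻¹)
            = S.π γ * (A * B) * S.π γ⁻¹ := fun A B => by
          simp only [mul_assoc]
          rw [← mul_assoc (S.π γ⁻¹), URep.inv_mul_self, one_mul]
        change _ = _
        rw [e, e, h1.eq]
      convert h2 using 1
      rw [av_amp, ← mul_assoc, ← mul_assoc, ← mul_assoc, (hs.s_π δ).eq, ← mul_assoc, ← mul_assoc,
        ← mul_assoc, ← map_mul, mul_inv_cancel_left]
      simp only [mul_assoc]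
      rw [← map_mul, (hs.s_π _).eq]
      simp
    · have h2 := hc 1 g
      have h3 := hP.cov g 1
      rw [mul_one, h.U] at h3
      have e := fun g => (ind_comm_amp (fun γ => (hs.s_π γ).symm) g).eq
      rw [← h3] at h2
      convert h2 using 1
      simp only [← mul_assoc, e g]
      simp only [mul_assoc, e g⁻¹]

end

end Crest.Agent.N111.B
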